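import Vale.Agent.P235.K5.H521.FatFin
import Vale.Agent.P235.K5.W.Defs

/-!
# Wagner: the row [W-FAT] in the letters of `K5/W/Defs` (helper404)

Two fat splits of a spanning `K_{3,3}` model give a spanning model of `K_5` or of `V_8`.
-/

set_option linter.all false
set_option autoImplicit false

namespace Vale.Agent.P235.K5.W.H404

open SimpleGraph Vale.Agent.P235.H134
open Vale.Agent.P235.K5.H521 (Touch HasV8 HasK5 CoreStmt Mod Split touch_union_left
  touch_union_right touch_of_connected nonempty_of_connected connected_class two_cases)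

/-- A spanning model from a partition `p` and a map `q` of its index set whose classes are
pairwise touching. -/
theorem has_of {V ι W : Type} {G : SimpleGraph V} {H : SimpleGraph W} (p : ι → Set V)
    (hp : ∀ i, (G.induce (p i)).Connected) (hd : ∀ i j, i ≠ j → Disjoint (p i) (p j))
    (hc : ∀ v, ∃ i, v ∈ p i) (q : ι → W) (hq : ∀ w, ∃ i, q i = w)
    (ht : ∀ i j, q i = q j → i ≠ j → Touch G (p i) (p j))
    (ha : ∀ w w', H.Adj w w' → ∃ i j, q i = w ∧ q j = w' ∧ Touch G (p i) (p j)) : Has H G := by
  choose idx hidx using hc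
  have huniq : ∀ v i, v ∈ p i → idx v = i := by
    intro v i hv
    by_contra h
    exact Set.disjoint_left.1 (hd _ _ h) (hidx v) hv
  refine ⟨fun v => q (idx v), fun w => ?_, fun w w' hw => ?_⟩
  · have e : {v | q (idx v) = w} = {v | ∃ i ∈ {i | q i = w}, v ∈ p i} := by
      ext v
      constructor
      · intro hv
        exact ⟨idx v, hv, hidx v⟩
      · rintro ⟨i, hi, hv⟩
        rw [← huniq v i hv] at hi
        exact hi
    show (G.induce {v | q (idx v) = w}).Connected
    rw [e]
    refine connected_class p hp {i | q i = w} (hq w) ?_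
    intro i hi j hj hij
    exact ht i j (by rw [show q i = w from hi, show q j = w from hj]) hij
  · obtain ⟨i, j, hi, hj, x, hx, y, hy, e⟩ := ha w w' hw
    refine ⟨x, y, ?_, ?_, e⟩
    · show q (idx x) = w
      rw [huniq x i hx, hi]
    · show q (idx y) = w'
      rw [huniq y j hy, hj]

theorem kf_of {V ι : Type} {G : SimpleGraph V} (p : ι → Set V)
    (hp : ∀ i, (G.induce (p i)).Connected) (hd : ∀ i j, i ≠ j → Disjoint (p i) (p j))
    (hc : ∀ v, ∃ i, v ∈ p i) (h : HasK5 fun i j => Touch G (p i) (p j)) : Has KF G := by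
  obtain ⟨g, h1, h2⟩ := h
  have hne : ∀ c : Fin 5, ∃ i, g i = c := by
    intro c
    have : c ≠ c + 1 := by
      intro h
      revert h
      revert c
      decide
    obtain ⟨i, _, hi, _, _⟩ := h2 c (c + 1) this
    exact ⟨i, hi⟩
  exact has_of p hp hd hc g hne h1 (fun w w' hw => h2 w w' hw)

theorem v8_of' {V : Type} {G : SimpleGraph V} (p : Fin 8 → Set V)
    (hp : ∀ i, (G.induce (p i)).Connected) (hd : ∀ i j, i ≠ j → Disjoint (p i) (p j))
    (hc : ∀ v, ∃ i, v ∈ p i) (h : HasV8 fun i j => Touch G (p i) (p j)) : Has V8 G := by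
  obtain ⟨σ, h1⟩ := h
  refine has_of p hp hd hc (fun i => σ.symm i) (fun w => ⟨σ w, σ.symm_apply_apply w⟩) ?_ ?_
  · intro i j hij hne
    exact absurd (σ.symm.injective hij) hne
  · intro w w' hw
    refine ⟨σ w, σ w', σ.symm_apply_apply w, σ.symm_apply_apply w', ?_⟩
    rcases hw with rfl | rfl | rfl
    · exact (h1 w).1
    · exact (h1 w').1.symm
    · exact (h1 w).2

theorem fat_has (hcore : CoreStmt) {V : Type} {G : SimpleGraph V} {A B : Fin 3 → Set V}
    (hM : Mod G A B) {i j : Fin 3}
    {C D P Q : Set V} (hA : Split G (A i) C D) (hB : Split G (B j) P Q)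
    (hC : Vale.Agent.P235.K5.H521.Two G C B) (hD : Vale.Agent.P235.K5.H521.Two G D B)
    (hP : Vale.Agent.P235.K5.H521.Two G P A) (hQ : Vale.Agent.P235.K5.H521.Two G Q A) :
    Has KF G ∨ Has V8 G := by
  have e1 : ∀ i : Fin 3, i ≠ i + 1 := by decide
  have e2 : ∀ i : Fin 3, i ≠ i + 2 := by decide
  have e3 : ∀ i : Fin 3, i + 1 ≠ i + 2 := by decide
  have sC : C ⊆ A i := by rw [hA.eq]; exact Set.subset_union_left
  have sD : D ⊆ A i := by rw [hA.eq]; exact Set.subset_union_right
  have sP : P ⊆ B j := by rw [hB.eq]; exact Set.subset_union_left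
  have sQ : Q ⊆ B j := by rw [hB.eq]; exact Set.subset_union_right
  have tCD : Touch G C D := touch_of_connected (by rw [← hA.eq]; exact hM.cA i)
    (nonempty_of_connected hA.cP) (nonempty_of_connected hA.cQ) hA.disj
  have tPQ : Touch G P Q := touch_of_connected (by rw [← hB.eq]; exact hM.cB j)
    (nonempty_of_connected hB.cP) (nonempty_of_connected hB.cQ) hB.disj
  let p : Fin 8 → Set V := ![C, D, A (i + 1), A (i + 2), P, Q, B (j + 1), B (j + 2)]
  have hp : ∀ a, (G.induce (p a)).Connected := by
    intro a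
    fin_cases a
    · exact hA.cP
    · exact hA.cQ
    · exact hM.cA _
    · exact hM.cA _
    · exact hB.cP
    · exact hB.cQ
    · exact hM.cB _
    · exact hM.cB _
  have d01 := hA.disj
  have d02 := (hM.dA _ _ (e1 i)).mono_left sC
  have d03 := (hM.dA _ _ (e2 i)).mono_left sC
  have d04 := (hM.dAB i j).mono sC sP
  have d05 := (hM.dAB i j).mono sC sQ
  have d06 := (hM.dAB i (j + 1)).mono_left sC
  have d07 := (hM.dAB i (j + 2)).mono_left sC
  have d12 := (hM.dA _ _ (e1 i)).mono_left sD
  have d13 := (hM.dA _ _ (e2 i)).mono_left sD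
  have d14 := (hM.dAB i j).mono sD sP
  have d15 := (hM.dAB i j).mono sD sQ
  have d16 := (hM.dAB i (j + 1)).mono_left sD
  have d17 := (hM.dAB i (j + 2)).mono_left sD
  have d23 := hM.dA _ _ (e3 i)
  have d24 := (hM.dAB (i + 1) j).mono_right sP
  have d25 := (hM.dAB (i + 1) j).mono_right sQ
  have d34 := (hM.dAB (i + 2) j).mono_right sP
  have d35 := (hM.dAB (i + 2) j).mono_right sQ
  have d45 := hB.disj
  have d46 := (hM.dB _ _ (e1 j)).mono_left sP
  have d47 := (hM.dB _ _ (e2 j)).mono_left sP
  have d56 := (hM.dB _ _ (e1 j)).mono_left sQ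
  have d57 := (hM.dB _ _ (e2 j)).mono_left sQ
  have d67 := hM.dB _ _ (e3 j)
  have hlt : ∀ a b : Fin 8, a < b → Disjoint (p a) (p b) := by
    intro a b hab
    fin_cases a <;> fin_cases b <;> first
      | exact absurd hab (by decide)
      | exact d01
      | exact d02
      | exact d03
      | exact d04
      | exact d05
      | exact d06
      | exact d07
      | exact d12
      | exact d13
      | exact d14
      | exact d15
      | exact d16
      | exact d17
      | exact d23
      | exact d24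
      | exact d25
      | exact hM.dAB _ _
      | exact d34
      | exact d35
      | exact d45
      | exact d46
      | exact d47
      | exact d56
      | exact d57
      | exact d67
  have hd : ∀ a b, a ≠ b → Disjoint (p a) (p b) := by
    intro a b hab
    rcases lt_or_gt_of_ne hab with h | h
    · exact hlt a b h
    · exact (hlt b a h).symm
  have hcov : ∀ v, ∃ a, v ∈ p a := by
    have key : ∀ j k : Fin 3, k = j ∨ k = j + 1 ∨ k = j + 2 := by decide
    intro v
    rcases hM.cover v with ⟨k, hk⟩ | ⟨k, hk⟩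
    · rcases key i k with rfl | rfl | rfl
      · rw [hA.eq] at hk
        rcases hk with hk | hk
        · exact ⟨0, hk⟩
        · exact ⟨1, hk⟩
      · exact ⟨2, hk⟩
      · exact ⟨3, hk⟩
    · rcases key j k with rfl | rfl | rfl
      · rw [hB.eq] at hk
        rcases hk with hk | hk
        · exact ⟨4, hk⟩
        · exact ⟨5, hk⟩
      · exact ⟨6, hk⟩
      · exact ⟨7, hk⟩
  have tA : ∀ k, Touch G C (B k) ∨ Touch G D (B k) := by
    intro k
    have := hM.touch i k
    rwa [hA.eq, touch_union_left] at this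
  have tB : ∀ k, Touch G P (A k) ∨ Touch G Q (A k) := by
    intro k
    have := (hM.touch k j).symm
    rwa [hB.eq, touch_union_left] at this
  have t4 : Touch G C P ∨ Touch G C Q ∨ Touch G D P ∨ Touch G D Q := by
    have := tA j
    rw [hB.eq, touch_union_right, touch_union_right] at this
    tauto
  have h := hcore (fun a b => Touch G (p a) (p b)) (fun a b h => h.symm) tCD tPQ
    (hM.touch _ _) (hM.touch _ _) (hM.touch _ _) (hM.touch _ _) (tA (j + 1)) (tA (j + 2))
    (tB (i + 1)) (tB (i + 2)) t4 (two_cases hB.eq hC) (two_cases hB.eq hD) (two_cases hA.eq hP)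
    (two_cases hA.eq hQ)
  rcases h with h | h
  · exact Or.inr (v8_of' p hp hd hcov h)
  · exact Or.inl (kf_of p hp hd hcov h)

theorem mod_of {V : Type} {G : SimpleGraph V} {f : V → Fin 3 ⊕ Fin 3} (h : M33 G f) :
    Mod G (fun i => part f (Sum.inl i)) (fun i => part f (Sum.inr i)) := by
  refine ⟨fun i => h.1 _, fun i => h.1 _, ?_, ?_, ?_, ?_, ?_⟩
  · intro i j hij
    rw [Set.disjoint_left]
    intro v hv hv'
    exact hij (Sum.inl_injective ((show f v = _ from hv).symm.trans hv'))
  · intro i j hij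
    rw [Set.disjoint_left]
    intro v hv hv'
    exact hij (Sum.inr_injective ((show f v = _ from hv).symm.trans hv'))
  · intro i j
    rw [Set.disjoint_left]
    intro v hv hv'
    exact absurd ((show f v = _ from hv).symm.trans hv') (by simp)
  · intro v
    rcases hv : f v with a | a
    · exact Or.inl ⟨a, hv⟩
    · exact Or.inr ⟨a, hv⟩
  · intro i j
    obtain ⟨u, v, hu, hv, e⟩ := h.2 i j
    exact ⟨u, hu, v, hv, e⟩

theorem split_of {V : Type} {G : SimpleGraph V} {X P : Set V} (hPX : P ⊆ X)
    (h1 : (G.induce P).Connected) (h2 : (G.induce (X \ P)).Connected) :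
    Split G X P (X \ P) :=
  ⟨(Set.union_diff_cancel hPX).symm, Set.disjoint_sdiff_right, h1, h2⟩

theorem two_of {V : Type} {G : SimpleGraph V} {f : V → Fin 3 ⊕ Fin 3} {o : Fin 3 → Fin 3 ⊕ Fin 3}
    {P : Set V} (h : Two P (lab G f o)) :
    Vale.Agent.P235.K5.H521.Two G P (fun i => part f (o i)) := by
  obtain ⟨a, b, hab, ⟨x, hx, v, hv, e⟩, y, hy, w, hw, e'⟩ := h
  exact ⟨a, b, hab, ⟨x, hx, v, hv, e⟩, y, hy, w, hw, e'⟩

/-- **[W-FAT]** -/
theorem ff : FFStmt := by
  intro V G f i j hM hA hB
  obtain ⟨C, hCX, c1, c2, c3, c4⟩ := hA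
  obtain ⟨P, hPX, p1, p2, p3, p4⟩ := hB
  exact fat_has Vale.Agent.P235.K5.H521.coreStmt (mod_of hM) (i := i) (j := j)
    (split_of hCX c1 c2) (split_of hPX p1 p2) (two_of c3) (two_of c4) (two_of p3) (two_of p4)

end Vale.Agent.P235.K5.W.H404
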